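import Vale.Agent.P318.H867.Main

/-!
# The Goemans–Linial gap on Cayley graphs of finite abelian groups is `O(log log n)`

`phi`, `glValue`, `IsNegTypeSemimetric` and `cutCap` are defined in
`Vale.Agent.P318.H867.Defs`.
-/

open Finset

namespace Vale.Agent.Results.P318.AbelianCayleyGap

open Vale.Agent.P318.H867

/-- For every finite abelian group `G` and every translation-invariant capacity
`c(x - y)` on it, the uniform sparsest cut value is at most
`1100 (1 + log (1 + min (M, e, log |G|)))` times the Goemans–Linial value, where `M` is the number
of generators (elements with nonzero capacity) and `e` the exponent of `G`. -/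
theorem result (G : Type) [AddCommGroup G] [Fintype G] [DecidableEq G] [Nontrivial G]
    (c : G → ℝ) (hnonneg : ∀ z, 0 ≤ c z) (hsymm : ∀ z, c (-z) = c z) (_hzero : c 0 = 0) :
    phi (fun x y => c (x - y)) ≤
      1100 * (1 + Real.log (1 + min ((univ.filter fun z => c z ≠ 0).card : ℝ)
        (min (AddMonoid.exponent G : ℝ) (Real.log (Fintype.card G))))) *
        glValue (fun x y => c (x - y)) :=
  main hnonneg hsymm

end Vale.Agent.Results.P318.AbelianCayleyGap
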