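import Vale.Agent.P318.TR.NoPTAS

/-!
Uniform Sparsest Cut on unweighted graphs is NP-hard to approximate within some constant factor
`C > 1`.
-/

namespace Vale.Agent.Results.P318.ConstantHardness

open Vale.Agent.P333 Vale.Agent.P318

theorem result :
    ∃ C : ℝ, 1 < C ∧
      (∀ L ∈ classNP,
        ∃ (G : List Bool → List (List Bool)) (a b : List Bool → ℕ),
          PolyTime (fun w : List Bool => w) graphW G ∧
          PolyTime (fun w : List Bool => w) Nat.bits a ∧
          PolyTime (fun w : List Bool => w) Nat.bits b ∧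
          ∀ x, IsGraph (G x) ∧ 0 < a x ∧ 0 < b x ∧
            (x ∈ L → Phi (capU (G x)) ≤ (a x : ℝ) / b x) ∧
            (x ∉ L → C * ((a x : ℝ) / b x) < Phi (capU (G x)))) ∧
      (Vale.Agent.P318.HasApprox (fun _ => C) → classNP = classP) :=
  Vale.Agent.P318.TR.noPTAS

end Vale.Agent.Results.P318.ConstantHardness
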