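import Mathlib
import Vale.Agent.P318.H612.Defs
import Vale.Agent.P318.H612.Main2

/-! Uniform Sparsest Cut with a transitive nilpotent group of symmetries. -/

namespace Vale.Agent.Results.P318.NilpotentSymmetry

open Finset Vale.Agent.P318.H612

theorem sum_abs_ind {n : ℕ} (w : Fin n → Fin n → ℝ) (hw : ∀ i j, w i j = w j i)
    (S : Finset (Fin n)) :
    ∑ u, ∑ v, w u v * |(if u ∈ S then (1:ℝ) else 0) - (if v ∈ S then 1 else 0)| =
      2 * ∑ i ∈ S, ∑ j ∈ Sᶜ, w i j := by
  have h1 : ∀ u, ∑ v, w u v * |(if u ∈ S then (1:ℝ) else 0) - (if v ∈ S then 1 else 0)| =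
      (if u ∈ S then ∑ v ∈ Sᶜ, w u v else 0) + (if u ∈ Sᶜ then ∑ v ∈ S, w u v else 0) := by
    intro u
    rw [← Finset.sum_add_sum_compl S]
    by_cases hu : u ∈ S
    · have hu' : u ∉ Sᶜ := by simpa using hu
      have e1 : ∑ v ∈ S, w u v * |(if u ∈ S then (1:ℝ) else 0) - (if v ∈ S then 1 else 0)| = 0 := by
        refine Finset.sum_eq_zero fun v hv => ?_
        simp [hu, hv]
      have e2 : ∑ v ∈ Sᶜ, w u v * |(if u ∈ S then (1:ℝ) else 0) - (if v ∈ S then 1 else 0)| =
          ∑ v ∈ Sᶜ, w u v := by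
        refine Finset.sum_congr rfl fun v hv => ?_
        have hv' : v ∉ S := by simpa using hv
        simp [hu, hv']
      rw [e1, e2]
      simp only [if_pos hu, if_neg hu', zero_add, add_zero]
    · have hu' : u ∈ Sᶜ := by simpa using hu
      have e1 : ∑ v ∈ S, w u v * |(if u ∈ S then (1:ℝ) else 0) - (if v ∈ S then 1 else 0)| =
          ∑ v ∈ S, w u v := by
        refine Finset.sum_congr rfl fun v hv => ?_
        simp [hu, hv]
      have e2 : ∑ v ∈ Sᶜ, w u v * |(if u ∈ S then (1:ℝ) else 0) - (if v ∈ S then 1 else 0)| =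
          0 := by
        refine Finset.sum_eq_zero fun v hv => ?_
        have hv' : v ∉ S := by simpa using hv
        simp [hu, hv']
      rw [e1, e2]
      simp only [if_neg hu, if_pos hu', zero_add, add_zero]
  rw [Finset.sum_congr rfl fun u _ => h1 u, Finset.sum_add_distrib]
  simp only [Finset.sum_ite_mem, Finset.univ_inter]
  have h2 : ∑ i ∈ Sᶜ, ∑ j ∈ S, w i j = ∑ i ∈ S, ∑ j ∈ Sᶜ, w i j := by
    rw [Finset.sum_comm]
    exact Finset.sum_congr rfl fun i _ => Finset.sum_congr rfl fun j _ => hw _ _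
  rw [h2]; ring

theorem sum_symm {n : ℕ} (w : Fin n → Fin n → ℝ) (hw : ∀ i j, w i j = w j i)
    (h0 : ∀ i, w i i = 0) : ∑ u, ∑ v, w u v = 2 * ∑ i, ∑ j ∈ Ioi i, w i j := by
  have h1 : ∀ u, ∑ v, w u v = ∑ v ∈ Ioi u, w u v + ∑ v ∈ Iio u, w u v := by
    intro u
    have hun : (univ : Finset (Fin n)) = Ioi u ∪ ({u} ∪ Iio u) := by
      ext v
      simp only [mem_univ, mem_union, mem_Ioi, mem_singleton, mem_Iio, true_iff]
      rcases lt_trichotomy u v with h | h | h
      · exact Or.inl h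
      · exact Or.inr (Or.inl h.symm)
      · exact Or.inr (Or.inr h)
    rw [hun, Finset.sum_union, Finset.sum_union, Finset.sum_singleton, h0, zero_add]
    · rw [Finset.disjoint_left]
      intro v hv hv'
      rw [mem_singleton] at hv
      rw [hv] at hv'
      simp at hv'
    · rw [Finset.disjoint_left]
      intro v hv hv'
      simp only [mem_Ioi, mem_union, mem_singleton, mem_Iio] at hv hv'
      rcases hv' with h | h
      · rw [h] at hv; exact lt_irrefl _ hv
      · exact lt_asymm hv h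
  rw [Finset.sum_congr rfl fun u _ => h1 u, Finset.sum_add_distrib]
  have h2 : ∑ u, ∑ v ∈ Iio u, w u v = ∑ u, ∑ v ∈ Ioi u, w u v := by
    rw [Finset.sum_comm' (t' := univ) (s' := fun v => Ioi v) (by simp)]
    exact Finset.sum_congr rfl fun i _ => Finset.sum_congr rfl fun j _ => hw _ _
  rw [h2]; ring

theorem ratio_nonneg {n : ℕ} {c : Fin n → Fin n → ℝ} (hc : IsCapacity c) (S : Finset (Fin n)) :
    0 ≤ ratio c S := by
  unfold ratio
  refine div_nonneg (Finset.sum_nonneg fun i _ => Finset.sum_nonneg fun j _ => hc.nonneg i j) ?_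
  refine mul_nonneg (by positivity) (sub_nonneg.2 ?_)
  have := Finset.card_le_univ S
  rw [Fintype.card_fin] at this
  exact_mod_cast this

theorem Phi_nonneg {n : ℕ} {c : Fin n → Fin n → ℝ} (hc : IsCapacity c) : 0 ≤ Phi c := by
  refine Real.sInf_nonneg ?_
  rintro r ⟨S, -, -, rfl⟩
  exact ratio_nonneg hc S

theorem Phi_cut {n : ℕ} {c : Fin n → Fin n → ℝ} (hc : IsCapacity c) (S : Finset (Fin n)) :
    Phi c * ∑ u, ∑ v, |(if u ∈ S then (1:ℝ) else 0) - (if v ∈ S then 1 else 0)| ≤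
      ∑ u, ∑ v, c u v * |(if u ∈ S then (1:ℝ) else 0) - (if v ∈ S then 1 else 0)| := by
  rw [sum_abs_ind c hc.symm S]
  have h1 := sum_abs_ind (fun _ _ : Fin n => (1 : ℝ)) (fun _ _ => rfl) S
  simp only [one_mul] at h1
  rw [h1]
  have hcardc : ((Sᶜ).card : ℝ) = (n : ℝ) - S.card := by
    rw [Finset.card_compl, Fintype.card_fin, Nat.cast_sub]
    have := Finset.card_le_univ S
    rwa [Fintype.card_fin] at this
  have h2 : ∑ i ∈ S, ∑ j ∈ Sᶜ, (1 : ℝ) = (S.card : ℝ) * ((n : ℝ) - S.card) := by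
    simp only [Finset.sum_const, nsmul_eq_mul, mul_one]
    rw [hcardc]
  rw [h2]
  have hc0 : 0 ≤ ∑ i ∈ S, ∑ j ∈ Sᶜ, c i j :=
    Finset.sum_nonneg fun i _ => Finset.sum_nonneg fun j _ => hc.nonneg i j
  by_cases hS : S.Nonempty ∧ S ≠ univ
  · have h3 : Phi c ≤ ratio c S :=
      csInf_le ⟨0, by rintro r ⟨T, -, -, rfl⟩; exact ratio_nonneg hc T⟩ ⟨S, hS.1, hS.2, rfl⟩
    have h4 : 0 < (S.card : ℝ) * ((n : ℝ) - S.card) := by
      refine mul_pos (by exact_mod_cast hS.1.card_pos) (sub_pos.2 ?_)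
      have := (Finset.card_lt_iff_ne_univ S).2 hS.2
      rw [Fintype.card_fin] at this
      exact_mod_cast this
    rw [ratio, le_div_iff₀ h4] at h3
    linarith
  · have h4 : (S.card : ℝ) * ((n : ℝ) - S.card) = 0 := by
      rw [not_and_or, Finset.not_nonempty_iff_eq_empty, not_not] at hS
      rcases hS with h | h
      · rw [h]; simp
      · rw [h]; simp
    rw [h4]; linarith

/-- Uniform Sparsest Cut with a transitive nilpotent group of symmetries of class at most `κ + 1`:
the gap of the Goemans-Linial relaxation is at most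
`√2 π 4^κ min(⌊log₂ m⌋, 8κ + 8⌈log₂ min(M, ⌊log₂ n⌋)⌉ + 21)`, where `m` is the exponent of the
abelianization and every point has at most `M` neighbours. -/
theorem result (n : ℕ) (hn : 2 ≤ n) (c : Fin n → Fin n → ℝ) (hc : IsCapacity c)
    (G : Subgroup (Equiv.Perm (Fin n)))
    (htrans : ∀ i j, ∃ g ∈ G, g i = j)
    (hsymm : ∀ g ∈ G, ∀ i j, c (g i) (g j) = c i j)
    (κ : ℕ) (hnil : Group.IsNilpotent G) (hclass : Group.nilpotencyClass G ≤ κ + 1)
    (M : ℕ) (hM : ∀ i, (univ.filter (fun j => c i j ≠ 0)).card ≤ M) :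
    Phi c ≤ Real.sqrt 2 * Real.pi * 4 ^ κ *
      ((min (Nat.log 2 (Monoid.exponent (Abelianization G)))
        (8 * κ + 8 * Nat.clog 2 (min M (Nat.log 2 n)) + 21) : ℕ) : ℝ) * GLRelax c := by
  classical
  have hG : (⊤ : Subgroup G).lowerCentralSeries (κ + 1) = ⊥ :=
    Subgroup.lowerCentralSeries_eq_bot_iff_nilpotencyClass_le.2 hclass
  set m := Monoid.exponent (Abelianization G) with hm
  have hm0 : 0 < m := Monoid.ExponentExists.exponent_pos Monoid.ExponentExists.of_finite
  have hexp : ∀ g : Abelianization G, g ^ m = 1 := fun g => Monoid.pow_exponent_eq_one g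
  set s := min M (Nat.log 2 n) with hs
  set K : ℝ := Real.sqrt 2 * Real.pi * 4 ^ κ *
    ((min (Nat.log 2 m) (8 * κ + 8 * Nat.clog 2 s + 21) : ℕ) : ℝ) with hK
  have hK0 : 0 ≤ K := by positivity
  have : MulAction.IsPretransitive G (Fin n) := ⟨fun i j => by
    obtain ⟨g, hg, hgi⟩ := htrans i j
    exact ⟨⟨g, hg⟩, hgi⟩⟩
  let o : Fin n := ⟨0, by omega⟩
  have hs' : Fintype.card (Fin n) < 2 ^ (s + 1) ∨ (univ.filter (fun v => c o v ≠ 0)).card ≤ s := by
    rw [Fintype.card_fin]
    rcases le_total M (Nat.log 2 n) with h | h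
    · right
      rw [hs, min_eq_left h]
      exact hM o
    · left
      rw [hs, min_eq_right h]
      exact Nat.lt_pow_succ_log_self (by norm_num) n
  have key : ∀ r ∈ {r | ∃ d : Fin n → Fin n → ℝ, NegType d ∧ (∑ i, ∑ j ∈ Ioi i, d i j) = 1 ∧
      r = ∑ i, ∑ j ∈ Ioi i, c i j * d i j}, Phi c ≤ K * r := by
    rintro r ⟨d, ⟨⟨x, hx⟩, htri⟩, hsum, rfl⟩
    have hdsymm : ∀ i j, d i j = d j i := fun i j => by rw [hx, hx, norm_sub_rev]
    have hd0 : ∀ i, d i i = 0 := fun i => by rw [hx]; simp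
    have h1 := main_abs (G := G) hG hm0 hexp hc.nonneg
      (fun g u v => hsymm g.1 g.2 u v) (Phi_nonneg hc) (Phi_cut hc) o hx htri
    have h2 := main_abs2 (G := G) hG hc.nonneg
      (fun g u v => hsymm g.1 g.2 u v) (Phi_nonneg hc) (Phi_cut hc) o hs' hx htri
    rw [sum_symm d hdsymm hd0, hsum, sum_symm (fun u v => c u v * d u v)
      (fun i j => by rw [hc.symm, hdsymm]) (fun i => by rw [hc.diag, zero_mul])] at h1 h2
    rcases le_total (Nat.log 2 m) (8 * κ + 8 * Nat.clog 2 s + 21) with h | h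
    · rw [hK, min_eq_left h]
      linarith
    · rw [hK, min_eq_right h]
      push_cast
      linarith
  -- the feasible set is nonempty
  have hne : {r | ∃ d : Fin n → Fin n → ℝ, NegType d ∧ (∑ i, ∑ j ∈ Ioi i, d i j) = 1 ∧
      r = ∑ i, ∑ j ∈ Ioi i, c i j * d i j}.Nonempty := by
    have hd0 : ∀ i j : Fin n, ‖EuclideanSpace.single i (1:ℝ) - EuclideanSpace.single j (1:ℝ)‖ ^ 2 =
        if i = j then 0 else 2 := by
      intro i j
      by_cases hij : i = j
      · simp [hij]
      · rw [if_neg hij, @norm_sub_sq_real, PiLp.norm_single, PiLp.norm_single,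
          EuclideanSpace.inner_single_left]
        simp [hij]
        norm_num
    set T : ℝ := ∑ i : Fin n, ∑ j ∈ Ioi i, (if i = j then (0:ℝ) else 2) with hT
    have hT0 : 0 < T := by
      have h01 : (⟨0, by omega⟩ : Fin n) < ⟨1, by omega⟩ := by
        rw [Fin.lt_def]; norm_num
      have hnn : ∀ i j : Fin n, 0 ≤ (if i = j then (0:ℝ) else 2) := by
        intro i j; split_ifs <;> norm_num
      have h2 : (2 : ℝ) ≤ ∑ j ∈ Ioi (⟨0, by omega⟩ : Fin n),
          (if (⟨0, by omega⟩ : Fin n) = j then (0:ℝ) else 2) := by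
        have := Finset.single_le_sum (f := fun j : Fin n =>
          (if (⟨0, by omega⟩ : Fin n) = j then (0:ℝ) else 2)) (fun j _ => hnn _ j)
          (Finset.mem_Ioi.2 h01)
        simp only [if_neg h01.ne] at this
        exact this
      have h3 := Finset.single_le_sum (f := fun i : Fin n =>
        ∑ j ∈ Ioi i, (if i = j then (0:ℝ) else 2))
        (fun i _ => Finset.sum_nonneg fun j _ => hnn i j) (Finset.mem_univ (⟨0, by omega⟩ : Fin n))
      have h4 : (2 : ℝ) ≤ T := h2.trans h3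
      linarith
    have hs : (Real.sqrt T)⁻¹ ^ 2 = T⁻¹ := by
      rw [inv_pow, Real.sq_sqrt hT0.le]
    refine ⟨_, fun i j => (if i = j then 0 else 2) * T⁻¹, ⟨⟨fun i =>
      (Real.sqrt T)⁻¹ • EuclideanSpace.single i (1:ℝ), fun i j => ?_⟩, fun i j k => ?_⟩, ?_, rfl⟩
    · rw [← smul_sub, norm_smul, mul_pow, hd0, Real.norm_eq_abs, sq_abs, hs, mul_comm]
    · have hTi : 0 < T⁻¹ := inv_pos.2 hT0
      rw [← add_mul]
      refine mul_le_mul_of_nonneg_right ?_ hTi.le
      by_cases h1 : i = k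
      · rw [if_pos h1]; split_ifs <;> norm_num
      · rw [if_neg h1]
        by_cases h2 : i = j
        · have h3 : j ≠ k := fun h => h1 (h2.trans h)
          rw [if_pos h2, if_neg h3]; norm_num
        · rw [if_neg h2]; split_ifs <;> norm_num
    · simp only [← Finset.sum_mul]
      rw [← hT, mul_inv_cancel₀ hT0.ne']
  unfold GLRelax
  rcases hK0.eq_or_lt with h0 | h0
  · obtain ⟨r, hr⟩ := hne
    have := key r hr
    rw [← h0, zero_mul] at this ⊢
    exact this
  · rw [← div_le_iff₀' h0]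
    refine le_csInf hne fun r hr => ?_
    rw [div_le_iff₀' h0]
    exact key r hr

end Vale.Agent.Results.P318.NilpotentSymmetry
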